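import Vale.Agent.Lib.P057.Backward

/-!
# P057: Erdős's reciprocal-sum conjecture for `k`-term progressions is equivalent to the
convergence of `∑_j r_k(4^j) / 4^j`
-/

namespace Vale.Agent.Results.P057.EquivalentDensityForm

open Vale.Agent.Lib.P057

theorem result (k : ℕ) (hk : 3 ≤ k) :
    (∀ A : Set ℕ, 0 ∉ A → ¬ Summable (A.indicator fun n : ℕ => (1 : ℝ) / n) → HasAP k A) ↔
      Summable (fun j : ℕ => (r k (4 ^ j) : ℝ) / 4 ^ j) := by
  constructor
  · intro H
    exact forward k hk fun A h0 hfree => by
      by_contra hns
      exact hfree (H A h0 hns)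
  · intro hs A _ hns
    by_contra hfree
    exact hns (backward k hs A hfree)

end Vale.Agent.Results.P057.EquivalentDensityForm
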